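import Vale.Agent.P308.MathlibUsed

/-!
# Words for the approximate counting of perfect matchings: definitions
-/

namespace Vale.Agent.P308.QP

/-- self-delimiting pairing of binary words: every bit of `u` is preceded by `true`, then comes
`false`, then `v` -/
def block : List Bool → List Bool → List Bool
  | [], v => false :: v
  | b :: u, v => true :: b :: block u v

open scoped Classical in
/-- the input word: the rows of the adjacency matrix of the graph (each row is a word of `n` bits,
the rows are combined by `block`), and the parameters `e`, `l` in unary -/
noncomputable def inputWord {n : ℕ} (G : SimpleGraph (Fin n)) (e l : ℕ) : List Bool :=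
  block ((List.ofFn fun i => List.ofFn fun j => decide (G.Adj i j)).foldr block [])
    (block (List.replicate e true) (List.replicate l true))

/-- the probability that a uniformly random word of `q` bits satisfies `P` -/
noncomputable def prob (q : ℕ) (P : List Bool → Prop) : ℝ :=
  ({w : List Bool | w.length = q ∧ P w}.ncard : ℝ) / 2 ^ q

/-- the number of perfect matchings of `G` -/
noncomputable def numPM {n : ℕ} (G : SimpleGraph (Fin n)) : ℕ :=
  Nat.card {M : G.Subgraph // M.IsPerfectMatching}

end Vale.Agent.P308.QP
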